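import Vale.Agent.P343.H741.Iface
import Mathlib.Data.Set.Card.Arithmetic

/-!
One level of the recursion (row S).
-/

namespace Vale.Agent.P343.H741

open Relation

/-! ### Words -/

section Words

variable {α Q : Type}

/-- The box of a word over an alphabet interpreted by `g`. -/
def wd (g : α → NB Q) (w : List α) : NB Q := (w.map g).prod

theorem wd_append (g : α → NB Q) (u v : List α) : wd g (u ++ v) = wd g u * wd g v := by
  unfold wd
  rw [List.map_append, List.prod_append]

theorem wd_nil (g : α → NB Q) : wd g [] = 1 := rfl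

theorem wd_single (g : α → NB Q) (a : α) : wd g [a] = g a := by
  unfold wd
  rw [List.map_singleton, List.prod_singleton]

theorem wd_rep (g : α → NB Q) (w : List α) (k : ℕ) : wd g (Box.rep w k) = wd g w ^ k := by
  induction k with
  | zero => rw [pow_zero]; rfl
  | succ k ih => rw [Box.rep, wd_append, ih, pow_succ']

theorem wd_flatMap {β : Type} (g : α → NB Q) (m : β → List α) (ws : List β) :
    wd g (ws.flatMap m) = (ws.map fun a => wd g (m a)).prod := by
  induction ws with
  | nil => rfl
  | cons a ws ih => rw [List.flatMap_cons, wd_append, ih, List.map_cons, List.prod_cons]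

theorem pv_append {T' : Type} (e f : NB Q) (x : T' → Bool) (L L' : List (NB Q ⊕ T')) :
    pv e f x (L ++ L') = pv e f x L * pv e f x L' := by
  unfold pv
  rw [List.map_append, List.prod_append]

theorem pv_inl {T' : Type} (e f : NB Q) (x : T' → Bool) (b : NB Q) :
    pv e f x [Sum.inl b] = b := by
  unfold pv
  simp

/-- The pieces of a word with toggles. -/
theorem pv_expand {T' : Type} (g : α → NB Q) (L0 L1 : List α) (x : T' → Bool)
    (C : List (α ⊕ T')) :
    pv (wd g L0) (wd g L1) x (C.map (Sum.map g id)) = wd g (Box.expand L0 L1 x C) := by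
  induction C with
  | nil => rfl
  | cons p C ih =>
    have h3 : Box.expand L0 L1 x (p :: C) =
        (Sum.elim (fun s => [s]) (fun t => if x t then L1 else L0) p) ++ Box.expand L0 L1 x C := by
      unfold Box.expand
      rw [List.flatMap_cons]
    rw [h3, wd_append, ← ih, List.map_cons]
    unfold pv
    rw [List.map_cons, List.prod_cons]
    congr 1
    rcases p with s | t
    · simp only [Sum.map_inl, Sum.elim_inl, id]
      rw [wd_single]
    · simp only [Sum.map_inr, Sum.elim_inr, id]
      by_cases hx : x t = true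
      · rw [if_pos hx, if_pos hx]
      · rw [if_neg hx, if_neg hx]

theorem countP_isT_map {T' : Type} (g : α → NB Q) (C : List (α ⊕ T')) (t : T') :
    (C.map (Sum.map g id)).countP (Box.isT t) = C.countP (Box.isT t) := by
  rw [List.countP_map]
  congr 1
  funext p
  rcases p with s | t'
  · simp [Box.isT]
  · simp [Box.isT]

end Words

/-! ### The chain of idempotents -/

section Chain

variable {V Q : Type} {n : ℕ} [Finite Q]

/-- An exponent that makes a box idempotent. -/
noncomputable def ie (x : NB Q) : ℕ := Classical.choose (exists_pow_idem x)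

theorem ie_pos (x : NB Q) : 0 < ie x := (Classical.choose_spec (exists_pow_idem x)).1

theorem ie_idem (x : NB Q) : x ^ ie x * x ^ ie x = x ^ ie x :=
  (Classical.choose_spec (exists_pow_idem x)).2

/-- The chain of words: the edges are added one by one. -/
noncomputable def chn (g : Box.Sym (Box.Ext V n) → NB Q) : ℕ → List (Box.Sym (Box.Ext V n))
  | 0 => [Box.idSym (Box.Ext V n)]
  | c + 1 => Box.rep (chn g c ++ [Box.edgeN V n c] ++ chn g c)
      (ie (wd g (chn g c ++ [Box.edgeN V n c] ++ chn g c)))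

theorem chn_zero (g : Box.Sym (Box.Ext V n) → NB Q) : chn g 0 = [Box.idSym (Box.Ext V n)] := rfl

theorem chn_succ (g : Box.Sym (Box.Ext V n) → NB Q) (c : ℕ) :
    chn g (c + 1) = Box.rep (chn g c ++ [Box.edgeN V n c] ++ chn g c)
      (ie (wd g (chn g c ++ [Box.edgeN V n c] ++ chn g c))) := rfl

/-- The exponent is positive. -/
theorem chn_pow (g : Box.Sym (Box.Ext V n) → NB Q) (c : ℕ) : ∃ k,
    ie (wd g (chn g c ++ [Box.edgeN V n c] ++ chn g c)) = k + 1 :=
  Nat.exists_eq_succ_of_ne_zero (Nat.pos_iff_ne_zero.1 (ie_pos _))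

theorem acts_chn (g : Box.Sym (Box.Ext V n) → NB Q) (hn : 0 < n) (c : ℕ)
    (S : Set (Box.Ext V n)) :
    Box.acts (chn g c) S = Box.addE (fun i j => i.val * n + j.val < c) S := by
  induction c generalizing S with
  | zero =>
    rw [chn_zero, Box.acts_cons, Box.acts_nil]
    ext y
    rw [Box.mem_act]
    simp [Box.addE, Box.idSym]
  | succ c ih =>
    rw [chn_succ]
    apply Box.acts_rep _ _ (ie_pos _)
    intro S
    rw [Box.acts_append, Box.acts_append, ih, ih, Box.acts_cons, Box.acts_nil, Box.act_edgeN,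
      Box.addE_addE, Box.addE_addE]
    apply Box.addE_congr
    intro i j
    have h1 : (i.val = c / n ∧ j.val = c % n) ↔ i.val * n + j.val = c := by
      constructor
      · rintro ⟨h1, h2⟩
        rw [h1, h2]
        have := Nat.div_add_mod c n
        rw [Nat.mul_comm] at this
        exact this
      · intro h
        have hj := j.2
        constructor
        · rw [← h, Nat.add_comm, Nat.add_mul_div_right _ _ hn, Nat.div_eq_of_lt hj, Nat.zero_add]
        · rw [← h, Nat.add_comm, Nat.add_mul_mod_self_right, Nat.mod_eq_of_lt hj]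
    rw [h1]
    omega

variable {g : Box.Sym (Box.Ext V n) → NB Q}

theorem chn_idem (h0 : g (Box.idSym _) * g (Box.idSym _) = g (Box.idSym _)) (c : ℕ) :
    wd g (chn g c) * wd g (chn g c) = wd g (chn g c) := by
  cases c with
  | zero => rw [chn_zero, wd_single]; exact h0
  | succ c => rw [chn_succ, wd_rep]; exact ie_idem _

theorem chn_left (h0 : g (Box.idSym _) * g (Box.idSym _) = g (Box.idSym _)) (c : ℕ) :
    wd g (chn g c) * wd g (chn g (c + 1)) = wd g (chn g (c + 1)) := by
  obtain ⟨k, hk⟩ := chn_pow g c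
  rw [chn_succ, wd_rep, hk, pow_succ', wd_append, wd_append]
  simp only [← mul_assoc]
  rw [chn_idem h0]

theorem chn_right (h0 : g (Box.idSym _) * g (Box.idSym _) = g (Box.idSym _)) (c : ℕ) :
    wd g (chn g (c + 1)) * wd g (chn g c) = wd g (chn g (c + 1)) := by
  obtain ⟨k, hk⟩ := chn_pow g c
  rw [chn_succ, wd_rep, hk, pow_succ, wd_append, wd_append]
  simp only [mul_assoc]
  rw [chn_idem h0]

theorem chn_left0 (h0 : g (Box.idSym _) * g (Box.idSym _) = g (Box.idSym _)) (c : ℕ) :
    g (Box.idSym _) * wd g (chn g c) = wd g (chn g c) := by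
  induction c with
  | zero => rw [chn_zero, wd_single]; exact h0
  | succ c ih => rw [← chn_left h0 c, ← mul_assoc, ih]

theorem chn_right0 (h0 : g (Box.idSym _) * g (Box.idSym _) = g (Box.idSym _)) (c : ℕ) :
    wd g (chn g c) * g (Box.idSym _) = wd g (chn g c) := by
  induction c with
  | zero => rw [chn_zero, wd_single]; exact h0
  | succ c ih => rw [← chn_right h0 c, mul_assoc, ih]

/-- A state of `e0` that passes through all edge letters passes through the chain. -/
theorem pass_chn (hP : PtsFacts Q) (h0 : g (Box.idSym _) * g (Box.idSym _) = g (Box.idSym _))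
    (hl : ∀ s, g (Box.idSym _) * g s = g s) (hr : ∀ s, g s * g (Box.idSym _) = g s)
    {d : Bool} {y : Q} (hy : Pt (g (Box.idSym _)) d y)
    (he : ∀ c, X (g (Box.idSym _)) (g (Box.edgeN V n c)) d y y) (c : ℕ) :
    X (g (Box.idSym _)) (wd g (chn g c)) d y y := by
  induction c with
  | zero => rw [chn_zero, wd_single]; exact hy
  | succ c ih =>
    obtain ⟨k, hk⟩ := chn_pow g c
    rw [chn_succ, wd_rep, hk]
    set e0 := g (Box.idSym (Box.Ext V n)) with he0
    set E := wd g (chn g c) with hE
    have hEl : e0 * E = E := chn_left0 h0 c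
    have hEr : E * e0 = E := chn_right0 h0 c
    have hx : wd g (chn g c ++ [Box.edgeN V n c] ++ chn g c) =
        E * g (Box.edgeN V n c) * E := by
      rw [wd_append, wd_append, wd_single]
    rw [hx]
    have h1 : X e0 (E * g (Box.edgeN V n c)) d y y :=
      hP.comp h0 hEl hEr (hl _) (hr _) ih (he c)
    have h1l : e0 * (E * g (Box.edgeN V n c)) = E * g (Box.edgeN V n c) := by
      rw [← mul_assoc, hEl]
    have h1r : E * g (Box.edgeN V n c) * e0 = E * g (Box.edgeN V n c) := by
      rw [mul_assoc, hr]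
    have h2 : X e0 (E * g (Box.edgeN V n c) * E) d y y := hP.comp h0 h1l h1r hEl hEr h1 ih
    have h2l : e0 * (E * g (Box.edgeN V n c) * E) = E * g (Box.edgeN V n c) * E := by
      rw [← mul_assoc, h1l]
    have h2r : E * g (Box.edgeN V n c) * E * e0 = E * g (Box.edgeN V n c) * E := by
      rw [mul_assoc, hEr]
    clear_value E
    generalize E * g (Box.edgeN V n c) * E = z at h2 h2l h2r
    clear hx
    have key : ∀ k : ℕ, e0 * z ^ (k + 1) = z ^ (k + 1) ∧ z ^ (k + 1) * e0 = z ^ (k + 1) ∧
        X e0 (z ^ (k + 1)) d y y := by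
      intro k
      induction k with
      | zero => rw [zero_add, pow_one]; exact ⟨h2l, h2r, h2⟩
      | succ k ihk =>
        obtain ⟨i1, i2, i3⟩ := ihk
        rw [pow_succ z (k + 1)]
        refine ⟨?_, ?_, hP.comp h0 i1 i2 h2l h2r i3 h2⟩
        · rw [← mul_assoc, i1]
        · rw [mul_assoc, h2r]
    exact (key k).2.2

/-- The lost classes of one step of the chain are touched by the active classes. -/
theorem lost_sub (hP : PtsFacts Q) (h0 : g (Box.idSym _) * g (Box.idSym _) = g (Box.idSym _))
    (hl : ∀ s, g (Box.idSym _) * g s = g s) (hr : ∀ s, g s * g (Box.idSym _) = g s)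
    {U : Set (Bool × Set Q)}
    (hU : ∀ d y, Pt (g (Box.idSym _)) d y → (d, cl (g (Box.idSym _)) d y) ∉ U →
      ∀ c, X (g (Box.idSym _)) (g (Box.edgeN V n c)) d y y) (c : ℕ) :
    Lost (wd g (chn g c)) (wd g (chn g (c + 1))) ⊆ UC (g (Box.idSym _)) U (wd g (chn g c)) := by
  rintro ⟨d, κ⟩ ⟨x, hx, hκ, hnot⟩
  simp only at hx hκ hnot
  subst hκ
  refine ⟨⟨x, hx, rfl⟩, ?_⟩
  intro y hy hpt
  simp only at hy hpt ⊢
  by_contra hU'
  apply hnot
  have h1 := pass_chn hP h0 hl hr hpt (hU d y hpt hU') (c + 1)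
  have h2 : X (wd g (chn g c)) (wd g (chn g (c + 1))) d y y :=
    hP.env (chn_left0 h0 c) (chn_right0 h0 c) h1
  exact hP.invR (chn_idem h0 c) (chn_left h0 c) (chn_right h0 c)
    (hP.invL (chn_idem h0 c) (chn_left h0 c) (chn_right h0 c) hy.1 h2) hy.2

/-- A step of the chain with few lost classes. -/
theorem chn_select (hP : PtsFacts Q) (hC : CountStmt)
    (h0 : g (Box.idSym _) * g (Box.idSym _) = g (Box.idSym _))
    (hl : ∀ s, g (Box.idSym _) * g s = g s) (hr : ∀ s, g s * g (Box.idSym _) = g s)
    (hn : 0 < n) {U : Set (Bool × Set Q)}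
    (hU : ∀ d y, Pt (g (Box.idSym _)) d y → (d, cl (g (Box.idSym _)) d y) ∉ U →
      ∀ c, X (g (Box.idSym _)) (g (Box.edgeN V n c)) d y y) :
    ∃ c < n * n, n * n * (Lost (wd g (chn g c)) (wd g (chn g (c + 1)))).ncard ≤ 2 * U.ncard := by
  set ρ : ℕ → ℕ := fun c => 2 * (UC (g (Box.idSym _)) U (wd g (chn g c))).ncard with hρ
  have hstep : ∀ c, ρ (c + 1) + (Lost (wd g (chn g c)) (wd g (chn g (c + 1)))).ncard ≤ ρ c :=
    fun c => hC Q (g (Box.idSym _)) (wd g (chn g c)) (wd g (chn g (c + 1))) U (chn_idem h0 c)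
      (chn_idem h0 (c + 1)) (chn_left h0 c) (chn_right h0 c) (lost_sub hP h0 hl hr hU c)
  obtain ⟨c, hc, hdrop⟩ := row_select (m := n * n) (Nat.mul_pos hn hn) ρ
    (fun c => (Nat.le_add_right _ _).trans (hstep c))
  refine ⟨c, hc, ?_⟩
  have h1 : (Lost (wd g (chn g c)) (wd g (chn g (c + 1)))).ncard ≤ ρ c - ρ (c + 1) := by
    have := hstep c
    omega
  have h2 : ρ 0 ≤ 2 * U.ncard := by
    show 2 * (UC (g (Box.idSym _)) U (wd g (chn g 0))).ncard ≤ 2 * U.ncard
    refine Nat.mul_le_mul_left _ (Set.ncard_le_ncard ?_ (Set.toFinite _))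
    rintro ⟨d, κ⟩ ⟨⟨x, hx, hκ⟩, h⟩
    rw [chn_zero, wd_single] at hx hκ
    simp only at hx hκ h
    subst hκ
    exact h x ⟨hx, hx⟩ hx
  exact (Nat.mul_le_mul_left _ h1).trans (hdrop.trans h2)

end Chain

/-- Row S: one level of the recursion. -/
theorem step (hP : ∀ (Q : Type) [Finite Q], PtsFacts Q) (hC : CountStmt) (hG : ToggleStmt) :
    StepStmt := by
  intro V _ s0 f0 n hn Q _ M hM a hNorm
  classical
  obtain ⟨h0, hl, hr, Act, hAct, hpass⟩ := hNorm
  -- the classes touched by the chain
  set U : Set (Bool × Set Q) :=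
    ⋃ i : Fin n, (Act (false, Box.trkW V i) ∪ Act (true, Box.trkP V i)) with hUdef
  have hUcard : U.ncard ≤ n * (2 * a) := by
    have h1 : U.ncard ≤ ∑ i : Fin n, (Act (false, Box.trkW V i) ∪ Act (true, Box.trkP V i)).ncard := by
      have := Finset.univ.set_ncard_biUnion_le
        (fun i : Fin n => Act (false, Box.trkW V i) ∪ Act (true, Box.trkP V i))
      simpa [hUdef] using this
    refine h1.trans ?_
    calc ∑ i : Fin n, (Act (false, Box.trkW V i) ∪ Act (true, Box.trkP V i)).ncard
        ≤ ∑ _i : Fin n, 2 * a := by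
          apply Finset.sum_le_sum
          intro i _
          refine (Set.ncard_union_le _ _).trans ?_
          have h1 := hAct (false, Box.trkW V i)
          have h2 := hAct (true, Box.trkP V i)
          omega
      _ = n * (2 * a) := by
          simp only [Finset.sum_const, Finset.card_univ, Fintype.card_fin, smul_eq_mul]
  have hU : ∀ d y, Pt (M.G (Box.idSym _)) d y → (d, cl (M.G (Box.idSym _)) d y) ∉ U →
      ∀ c, X (M.G (Box.idSym _)) (M.G (Box.edgeN V n c)) d y y := by
    intro d y hy hnot c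
    refine hpass (Box.edgeN V n c) (fun _ => rfl) d y hy ?_ ?_
    · intro v hv hmem
      obtain ⟨i, rfl, _⟩ := Box.isW_iff.1 hv
      exact hnot (Set.mem_iUnion.2 ⟨i, Or.inl hmem⟩)
    · intro v hv hmem
      obtain ⟨i, rfl, _⟩ := Box.isP_iff.1 hv
      exact hnot (Set.mem_iUnion.2 ⟨i, Or.inr hmem⟩)
  obtain ⟨c, hc, hlost⟩ := chn_select (hP Q) hC h0 hl hr hn hU
  have hLost : n * (Lost (wd M.G (chn M.G c)) (wd M.G (chn M.G (c + 1)))).ncard ≤ 4 * a := by
    have h2 : n * (n * (Lost (wd M.G (chn M.G c)) (wd M.G (chn M.G (c + 1)))).ncard) ≤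
        n * (4 * a) := by
      calc n * (n * (Lost (wd M.G (chn M.G c)) (wd M.G (chn M.G (c + 1)))).ncard)
          = n * n * (Lost (wd M.G (chn M.G c)) (wd M.G (chn M.G (c + 1)))).ncard := by ring
        _ ≤ 2 * U.ncard := hlost
        _ ≤ 2 * (n * (2 * a)) := Nat.mul_le_mul_left _ hUcard
        _ = n * (4 * a) := by ring
    exact Nat.le_of_mul_le_mul_left h2 hn
  -- the cell
  have hi : c / n < n := Nat.div_lt_of_lt_mul hc
  have hj : c % n < n := Nat.mod_lt _ hn
  have hcn : c / n * n + c % n = c := by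
    have := Nat.div_add_mod c n
    rwa [Nat.mul_comm] at this
  set L0 := chn M.G c with hL0
  set L1 := chn M.G (c + 1) with hL1
  set C : List (Box.Sym (Box.Ext V n) ⊕ (Fin 3 × V)) :=
    Box.cellP (V := V) (n := n) ⟨c / n, hi⟩ ⟨c % n, hj⟩ Finset.univ.toList with hCdef
  have hcount : ∀ t, C.countP (Box.isT t) = 1 := fun t =>
    Box.countP_isT_cellP _ _ _ (Finset.nodup_toList _)
      (fun v => Finset.mem_toList.2 (Finset.mem_univ v)) t
  have hact : ∀ (s : Box.Sym V) (A : Set V),
      Box.acts (Box.expand L0 L1 (Box.bits s) C) (Sum.inl '' A) = Sum.inl '' (s.act A) := by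
    intro s A
    apply Box.acts_cellP (P0 := fun i j => i.val * n + j.val < c)
      (P1 := fun i j => i.val * n + j.val < c + 1)
      (fun S => acts_chn M.G hn c S) (fun S => acts_chn M.G hn (c + 1) S)
    · simp only [hcn]; omega
    · simp only [hcn]; omega
    · intro v
      exact Finset.mem_toList.2 (Finset.mem_univ v)
  set e := wd M.G L0 with hedef
  set f := wd M.G L1 with hfdef
  have hee : e * e = e := chn_idem h0 c
  have hff : f * f = f := chn_idem h0 (c + 1)
  have hef : e * f = f := chn_left h0 c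
  have hfe : f * e = f := chn_right h0 c
  -- the words of the letters
  let w : Box.Sym V → List (Box.Sym (Box.Ext V n)) := fun s => Box.expand L0 L1 (Box.bits s) C
  let w0 := w (Box.idSym V)
  obtain ⟨k, hk, hidem⟩ := exists_pow_idem (wd M.G w0)
  obtain ⟨k, rfl⟩ : ∃ k', k = k' + 1 := ⟨k - 1, by omega⟩
  set e' := wd M.G w0 ^ (k + 1) with he'def
  have he'rep : wd M.G (Box.rep w0 (k + 1)) = e' := wd_rep _ _ _
  let m : Box.Sym V → List (Box.Sym (Box.Ext V n)) := fun s => w s ++ Box.rep w0 k
  have hm0 : wd M.G (m (Box.idSym V)) = e' := by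
    show wd M.G (w0 ++ Box.rep w0 k) = e'
    rw [wd_append, wd_rep, ← pow_succ']
  have hact0 : ∀ S : Set V, Box.acts w0 (Sum.inl '' S) = (Sum.inl '' S : Set (Box.Ext V n)) := by
    intro S
    show Box.acts (Box.expand L0 L1 (Box.bits (Box.idSym V)) C) (Sum.inl '' S) = Sum.inl '' S
    rw [hact, Box.idSym_act]
  have hactY : ∀ S : Set V, Box.acts (Box.rep w0 (k + 1)) (Sum.inl '' S) =
      (Sum.inl '' S : Set (Box.Ext V n)) := fun S => Box.acts_rep1 _ _ hact0 (k + 1) S
  have hactm : ∀ (s : Box.Sym V) (S : Set V),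
      Box.acts (Box.rep w0 (k + 1) ++ m s) (Sum.inl '' S) =
        (Sum.inl '' (s.act S) : Set (Box.Ext V n)) := by
    intro s S
    show Box.acts (Box.rep w0 (k + 1) ++ (w s ++ Box.rep w0 k)) (Sum.inl '' S) = _
    rw [Box.acts_append, hactY, Box.acts_append]
    show Box.acts (Box.rep w0 k) (Box.acts (Box.expand L0 L1 (Box.bits s) C) (Sum.inl '' S)) = _
    rw [hact, Box.acts_rep1 _ _ hact0]
  let G1 : Box.Sym V → NB Q := fun s => e' * wd M.G (m s) * e'
  have hG0 : G1 (Box.idSym V) = e' := by
    show e' * wd M.G (m (Box.idSym V)) * e' = e'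
    rw [hm0, hidem, hidem]
  -- the pieces
  let L : List (NB Q ⊕ (Fin 3 × V)) :=
    [Sum.inl e'] ++ (C.map (Sum.map M.G id) ++ [Sum.inl (wd M.G (Box.rep w0 k) * e')])
  have hLpv : ∀ s : Box.Sym V, pv e f (Box.bits s) L = G1 s := by
    intro s
    show pv e f (Box.bits s) ([Sum.inl e'] ++ (C.map (Sum.map M.G id) ++
      [Sum.inl (wd M.G (Box.rep w0 k) * e')])) = e' * wd M.G (m s) * e'
    rw [pv_append, pv_append, pv_inl, pv_inl, hedef, hfdef, pv_expand]
    show _ = e' * wd M.G (w s ++ Box.rep w0 k) * e'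
    rw [wd_append]
    simp only [mul_assoc]
    rfl
  have hLcount : ∀ t, L.countP (Box.isT t) = 1 := by
    intro t
    show ([Sum.inl e'] ++ (C.map (Sum.map M.G id) ++
      [Sum.inl (wd M.G (Box.rep w0 k) * e')]) : List (NB Q ⊕ (Fin 3 × V))).countP (Box.isT t) = _
    rw [List.countP_append, List.countP_append, countP_isT_map, hcount]
    simp [Box.isT]
  obtain ⟨Act', hAct', hAct'pass⟩ := hG Q (Fin 3 × V) e f L (Box.bits (Box.idSym V)) hee hff hef hfe
    (by simp [L]) (by rw [hLpv, hG0]; exact hidem) (fun t _ => (hLcount t).le)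
  rw [hLpv, hG0] at hAct'pass
  refine ⟨⟨G1, M.bl * e', M.br, M.start, M.fin⟩, 2 * (Lost e f).ncard, ⟨?_, ?_, ?_, ?_⟩, ?_, ?_⟩
  · show G1 (Box.idSym V) * G1 (Box.idSym V) = G1 (Box.idSym V)
    rw [hG0]; exact hidem
  · intro s
    show G1 (Box.idSym V) * G1 s = G1 s
    rw [hG0]
    show e' * (e' * wd M.G (m s) * e') = e' * wd M.G (m s) * e'
    rw [← mul_assoc, ← mul_assoc, hidem]
  · intro s
    show G1 s * G1 (Box.idSym V) = G1 s
    rw [hG0]
    show e' * wd M.G (m s) * e' * e' = e' * wd M.G (m s) * e'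
    rw [mul_assoc, hidem]
  · refine ⟨fun t => Act' (if t.1 then 1 else 0, t.2), ?_, ?_⟩
    · rintro ⟨b, v⟩
      cases b
      · exact hAct' (0, v) (by simp [Box.bits, Box.idSym])
      · exact hAct' (1, v) (by simp [Box.bits, Box.idSym])
    · intro s hs d x hx h1 h2
      show X (G1 (Box.idSym V)) (G1 s) d x x
      rw [show Pt (G1 (Box.idSym V)) d x = Pt e' d x by rw [hG0]] at hx
      rw [hG0]
      have hh := hAct'pass (Box.bits s) ?_ d x hx ?_
      · rwa [hLpv] at hh
      · rintro ⟨i, v⟩ hi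
        rw [Box.bits_idSym] at hi
        simp only [decide_eq_true_eq] at hi
        unfold Box.bits
        rw [if_neg hi.1, if_neg hi.2]
        exact hs v
      · rintro ⟨i, v⟩ hi0 hi1
        rw [Box.bits_idSym] at hi0
        simp only [decide_eq_false_iff_not, not_and_or, not_not] at hi0
        unfold Box.bits at hi1
        simp only at hi1
        rcases hi0 with hi0 | hi0
        · subst hi0
          have := h1 v (by simpa using hi1)
          simp only [hG0] at this
          simpa using this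
        · subst hi0
          have := h2 v (by simpa using hi1)
          simp only [hG0] at this
          simpa using this
  · calc n * (2 * (Lost e f).ncard) = 2 * (n * (Lost e f).ncard) := by ring
      _ ≤ 2 * (4 * a) := Nat.mul_le_mul_left _ hLost
      _ = 8 * a := by ring
  · intro ws
    have h1 : (⟨G1, M.bl * e', M.br, M.start, M.fin⟩ : BAut (Box.Sym V) Q).Acc ws ↔
        M.Acc (Box.rep w0 (k + 1) ++
          ws.flatMap (fun s => (Box.rep w0 (k + 1) ++ m s) ++ Box.rep w0 (k + 1))) := by
      unfold BAut.Acc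
      have h2 : ((Box.rep w0 (k + 1) ++
          ws.flatMap (fun s => (Box.rep w0 (k + 1) ++ m s) ++ Box.rep w0 (k + 1))).map M.G).prod =
          e' * (ws.map G1).prod := by
        show wd M.G _ = _
        rw [wd_append, wd_flatMap, he'rep]
        congr 2
        apply List.map_congr_left
        intro s _
        rw [wd_append, wd_append, he'rep]
      rw [h2]
      simp only [mul_assoc]
    rw [h1, hM]
    unfold Box.RLang
    rw [← Set.image_singleton, Box.acts_macro Sum.inl (Box.rep w0 (k + 1))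
      (fun s => Box.rep w0 (k + 1) ++ m s) hactY hactm, Sum.inl_injective.mem_set_image]

end Vale.Agent.P343.H741
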